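import Mathlib

/-!
**Explicit elements of reduced norm one with a given unitary quotient.**  `D` is a division ring
with an involution over a field `K` with an involution, `N` is multiplicative on `D`, compatible
with the involutions and equal to `c ↦ c ^ n` on `K`, `n = 2 m + 1` is odd.  If `u` is unitary and
`N u = 1`, then `u = g⋆ g⁻¹` for an explicit `g` with `N g = 1`, which commutes with `u` and with
`g⋆` and which is close to one when `u` is.
-/

open Filter Topology

set_option linter.unusedSectionVars false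

namespace Vale.Agent.P011.H955.Odd

variable {K D : Type*} [Field K] [StarRing K] [DivisionRing D] [StarRing D] [Algebra K D]

/-- The resolvent `t + t⋆ u⋆`. -/
def hg (t : K) (u : D) : D := algebraMap K D t + algebraMap K D (star t) * star u

/-- The corrected resolvent: its norm is one. -/
def hh (N : D →* K) (m : ℕ) (t : K) (u : D) : D :=
  hg t u * algebraMap K D (N (hg t u))⁻¹ * (hg t u * star (hg t u)) ^ m

section alg

variable {t : K} {u : D}

theorem star_mul_self_of {u : D} (hu : u * star u = 1) : star u * u = 1 := by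
  have h0 : u ≠ 0 := by rintro rfl; simp at hu
  have h1 : star u = u⁻¹ := eq_inv_of_mul_eq_one_right hu
  rw [h1, inv_mul_cancel₀ h0]

theorem commute_star {u : D} (hu : u * star u = 1) : Commute u (star u) := by
  show u * star u = star u * u
  rw [hu, star_mul_self_of hu]

theorem commute_hg (x : D) (h1 : Commute x (star u)) :
    Commute x (hg t u) := by
  have h2 : Commute x (algebraMap K D t) := (Algebra.commutes t x).symm
  have h3 : Commute x (algebraMap K D (star t)) := (Algebra.commutes (star t) x).symm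
  exact h2.add_right (h3.mul_right h1)

variable (hst : ∀ c : K, star (algebraMap K D c) = algebraMap K D (star c))

include hst

theorem star_hg (hu : u * star u = 1) : star (hg t u) = u * hg t u := by
  rw [hg, star_add, star_mul, star_star, hst, hst, star_star, mul_add, ← mul_assoc,
    ← Algebra.commutes (star t) u, mul_assoc, hu, mul_one, add_comm]

theorem commute_hg_star (hu : u * star u = 1) : Commute (hg t u) (star (hg t u)) := by
  rw [star_hg hst hu]
  exact (commute_hg u (commute_star hu)).symm.mul_right (Commute.refl _)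

variable {N : D →* K} (hNs : ∀ x : D, N (star x) = star (N x))

include hNs

theorem star_N_hg (hu : u * star u = 1) (hNu : N u = 1) :
    star (N (hg t u)) = N (hg t u) := by
  rw [← hNs, star_hg hst hu, map_mul, hNu, one_mul]

/-- The properties of the corrected resolvent. -/
theorem hh_spec {n m : ℕ} (hn : n = 2 * m + 1) (hNa : ∀ a : K, N (algebraMap K D a) = a ^ n)
    (hu : u * star u = 1) (hNu : N u = 1) (hg0 : hg t u ≠ 0) :
    star (hh N m t u) = u * hh N m t u ∧ N (hh N m t u) = 1 ∧ hh N m t u ≠ 0 ∧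
      Commute u (hh N m t u) ∧ Commute (hh N m t u) (star (hh N m t u)) ∧
      u = star (hh N m t u) * (hh N m t u)⁻¹ := by
  have hν0 : N (hg t u) ≠ 0 := by
    intro h
    have h1 : N (hg t u) * N (hg t u)⁻¹ = 1 := by rw [← map_mul, mul_inv_cancel₀ hg0, map_one]
    rw [h, zero_mul] at h1
    exact zero_ne_one h1
  have hνs := star_N_hg hst hNs (t := t) hu hNu
  have hsg : star (hg t u) = u * hg t u := star_hg hst hu
  have hcu : Commute u (hg t u) := commute_hg u (commute_star hu)
  have hcs : Commute (hg t u) (star (hg t u)) := commute_hg_star hst hu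
  have hcuq : Commute u (hg t u * star (hg t u)) := by
    rw [hsg]; exact hcu.mul_right ((Commute.refl u).mul_right hcu)
  have hcc : ∀ (c : K) (x : D), Commute (algebraMap K D c) x := fun c x => Algebra.commutes c x
  have hcuh : Commute u (hh N m t u) := by
    unfold hh
    exact (hcu.mul_right (hcc _ _).symm).mul_right (hcuq.pow_right m)
  have hsq : star (hg t u * star (hg t u)) = hg t u * star (hg t u) := by
    rw [star_mul, star_star]
  have e1 : star (hh N m t u) = u * hh N m t u := by
    have h2 : star (algebraMap K D (N (hg t u))⁻¹) = algebraMap K D (N (hg t u))⁻¹ := by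
      rw [hst, star_inv₀, hνs]
    have h3 : star (hh N m t u) =
        (hg t u * star (hg t u)) ^ m * (algebraMap K D (N (hg t u))⁻¹ * (u * hg t u)) := by
      unfold hh
      rw [star_mul, star_mul, star_pow, hsq, h2, hsg]
    rw [h3]
    have h4 : Commute ((hg t u * star (hg t u)) ^ m)
        (algebraMap K D (N (hg t u))⁻¹ * (u * hg t u)) := by
      have h5 : Commute (hg t u * star (hg t u)) (hg t u) := by
        exact ((Commute.refl _).mul_left hcs.symm)
      exact ((hcc _ _).symm.mul_right ((hcuq.symm).mul_right h5)).pow_left m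
    rw [h4.eq]
    unfold hh
    have h6 : algebraMap K D (N (hg t u))⁻¹ * (u * hg t u) =
        u * (hg t u * algebraMap K D (N (hg t u))⁻¹) := by
      rw [(hcc _ _).eq, mul_assoc]
    rw [h6, mul_assoc]
  have e2 : N (hh N m t u) = 1 := by
    unfold hh
    rw [map_mul, map_mul, map_pow, map_mul, hNs, hνs, hNa, hn, inv_pow]
    rw [← pow_two, ← pow_mul, pow_succ]
    field_simp
  have e3 : hh N m t u ≠ 0 := by
    unfold hh
    refine mul_ne_zero (mul_ne_zero hg0 ?_) (pow_ne_zero _ (mul_ne_zero hg0 ?_))
    · simpa using hν0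
    · simpa using hg0
  refine ⟨e1, e2, e3, hcuh, ?_, ?_⟩
  · rw [e1]; exact hcuh.symm.mul_right (Commute.refl _)
  · rw [e1, mul_assoc, mul_inv_cancel₀ e3, mul_one]

end alg

/-- The corrected resolvent tends to one with `u`. -/
theorem tendsto_hh [TopologicalSpace D] [IsTopologicalRing D] [ContinuousStar D]
    {N : D →* K} (hN : Tendsto (fun x : D => algebraMap K D (N x)⁻¹) (𝓝 1) (𝓝 1))
    {t : K} (ht : t + star t = 1) (m : ℕ) {α : Type*} {l : Filter α} {u : α → D}
    (hu : Tendsto u l (𝓝 1)) :
    Tendsto (fun i => hg t (u i)) l (𝓝 1) ∧ Tendsto (fun i => hh N m t (u i)) l (𝓝 1) := by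
  have h1 : Tendsto (fun i => hg t (u i)) l (𝓝 1) := by
    have h2 : Tendsto (fun i => hg t (u i)) l
        (𝓝 (algebraMap K D t + algebraMap K D (star t) * star (1 : D))) :=
      tendsto_const_nhds.add (tendsto_const_nhds.mul ((continuous_star.tendsto _).comp hu))
    rwa [star_one, mul_one, ← map_add, ht, map_one] at h2
  have h3 : Tendsto (fun i => star (hg t (u i))) l (𝓝 1) := by
    have := (continuous_star.tendsto (1 : D)).comp h1
    rwa [star_one] at this
  have h4 : Tendsto (fun i => hh N m t (u i)) l (𝓝 (1 * 1 * (1 * 1) ^ m)) :=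
    (h1.mul (hN.comp h1)).mul ((h1.mul h3).pow m)
  refine ⟨h1, ?_⟩
  simpa using h4

section ball

variable {ι : Type*} {ν : ι → AbsoluteValue D ℝ}

/-- Products of elements in a ball around one (ultrametric, radius at most one). -/
theorem ball_mul (hult : ∀ i x y, ν i (x + y) ≤ max (ν i x) (ν i y)) {ε : ℝ} (hε1 : ε ≤ 1)
    {x y : D} {i : ι} (hx : ν i (x - 1) < ε) (hy : ν i (y - 1) < ε) : ν i (x * y - 1) < ε := by
  have h1 : x * y - 1 = (x - 1) * y + (y - 1) := by noncomm_ring
  have hy1 : ν i y ≤ 1 := by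
    have h2 : y = (y - 1) + 1 := by abel
    rw [h2]
    refine (hult i _ _).trans (max_le (hy.le.trans hε1) ?_)
    rw [map_one]
  rw [h1]
  refine (hult i _ _).trans_lt (max_lt ?_ hy)
  rw [map_mul]
  calc ν i (x - 1) * ν i y ≤ ν i (x - 1) * 1 :=
        mul_le_mul_of_nonneg_left hy1 (AbsoluteValue.nonneg _ _)
    _ < ε := by rwa [mul_one]

theorem ball_pow (hult : ∀ i x y, ν i (x + y) ≤ max (ν i x) (ν i y)) {ε : ℝ} (hε0 : 0 < ε)
    (hε1 : ε ≤ 1) {x : D} {i : ι} (hx : ν i (x - 1) < ε) (m : ℕ) : ν i (x ^ m - 1) < ε := by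
  induction m with
  | zero => simpa using hε0
  | succ m ih => rw [pow_succ]; exact ball_mul hult hε1 ih hx

/-- Inverses of elements in a ball around one. -/
theorem ball_inv (hult : ∀ i x y, ν i (x + y) ≤ max (ν i x) (ν i y)) {ε : ℝ} (hε1 : ε ≤ 1)
    {x : D} {i : ι} (hx : ν i (x - 1) < ε) : ν i (x⁻¹ - 1) < ε := by
  have h1 : ν i x = 1 := by
    refine le_antisymm ?_ ?_
    · have h2 : x = (x - 1) + 1 := by abel
      rw [h2]
      refine (hult i _ _).trans (max_le (hx.le.trans hε1) ?_)
      rw [map_one]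
    · by_contra h
      push Not at h
      have h3 : (1 : ℝ) ≤ max (ν i x) (ν i (x - 1)) := by
        have h4 : (1 : D) = x + -(x - 1) := by abel
        calc (1 : ℝ) = ν i 1 := (map_one _).symm
          _ = ν i (x + -(x - 1)) := by rw [← h4]
          _ ≤ max (ν i x) (ν i (-(x - 1))) := hult i _ _
          _ = max (ν i x) (ν i (x - 1)) := by rw [AbsoluteValue.map_neg]
      exact absurd h3 (not_le.mpr (max_lt h (hx.trans_le hε1)))
  have h0 : x ≠ 0 := by
    rintro rfl
    rw [map_zero] at h1
    exact zero_ne_one h1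
  have h5 : x⁻¹ - 1 = x⁻¹ * -(x - 1) := by
    rw [neg_sub, mul_sub, mul_one, inv_mul_cancel₀ h0]
  rw [h5, map_mul, map_inv₀, h1, inv_one, one_mul, AbsoluteValue.map_neg]
  exact hx

/-- The corrected resolvent is close to one, with an explicit radius. -/
theorem ball_hh (hult : ∀ i x y, ν i (x + y) ≤ max (ν i x) (ν i y))
    (hstar : ∀ i, ∃ j, ∀ x : D, ν j x = ν i (star x)) {N : D →* K} {t : K}
    (ht : t + star t = 1) (m : ℕ) {ε δ c : ℝ} (hε0 : 0 < ε) (hε1 : ε ≤ 1) (hδε : δ ≤ ε)
    (hc0 : 0 < c) (hc : ∀ i, ν i (algebraMap K D (star t)) ≤ c)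
    (hN : ∀ x : D, (∀ i, ν i (x - 1) < δ) → ∀ i, ν i (algebraMap K D (N x) - 1) < ε)
    {u : D} (hu : ∀ i, ν i (u - 1) < δ / c) :
    (∀ i, ν i (hg t u - 1) < δ) ∧ ∀ i, ν i (hh N m t u - 1) < ε := by
  have h1 : ∀ i, ν i (hg t u - 1) < δ := by
    intro i
    have h2 : hg t u - 1 = algebraMap K D (star t) * star (u - 1) := by
      rw [hg, star_sub, star_one, mul_sub, mul_one]
      have : (1 : D) = algebraMap K D t + algebraMap K D (star t) := by
        rw [← map_add, ht, map_one]
      nth_rewrite 1 [this]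
      abel
    obtain ⟨j, hj⟩ := hstar i
    rw [h2, map_mul, ← hj]
    calc ν i (algebraMap K D (star t)) * ν j (u - 1) ≤ c * ν j (u - 1) :=
          mul_le_mul_of_nonneg_right (hc i) (AbsoluteValue.nonneg _ _)
      _ < c * (δ / c) := mul_lt_mul_of_pos_left (hu j) hc0
      _ = δ := by field_simp
  have h3 : ∀ i, ν i (star (hg t u) - 1) < ε := by
    intro i
    obtain ⟨j, hj⟩ := hstar i
    have : star (hg t u) - 1 = star (hg t u - 1) := by rw [star_sub, star_one]
    rw [this, ← hj]
    exact (h1 j).trans_le hδε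
  refine ⟨h1, fun i => ?_⟩
  unfold hh
  refine ball_mul hult hε1 (ball_mul hult hε1 ((h1 i).trans_le hδε) ?_)
    (ball_pow hult hε0 hε1 (ball_mul hult hε1 ((h1 i).trans_le hδε) (h3 i)) m)
  rw [map_inv₀]
  exact ball_inv hult hε1 (hN _ h1 i)

end ball

end Vale.Agent.P011.H955.Odd
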