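import Vale.Agent.P011.H955.Odd.Hil
import Vale.Agent.P011.H436.OddN.Moves

/-!
**The two-point functional at `(0, 1)` for elements which commute with their conjugate.**
-/

namespace Vale.Agent.P011.H955.Odd

open Vale.Agent.P011.H436.OddN

variable {D : Type*} [DivisionRing D] [StarRing D] {E : Type*} [CommGroup E]

/-- The scalar of `(0, 1)` at `r` when `r` commutes with `r⋆`. -/
theorem at_comm {r : D} (hr : Commute r (star r)) (hne : r ≠ star r) :
    At r 0 1 (r - star r)⁻¹ := by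
  have h0 : r - star r ≠ 0 := sub_ne_zero.mpr hne
  have h1 : star (r - star r)⁻¹ = -(r - star r)⁻¹ := by
    rw [star_inv₀, star_sub, star_star, ← inv_neg, neg_sub]
  refine ⟨by rw [h1]; simp, ?_⟩
  have h2 : Commute (star r) (r - star r)⁻¹ :=
    ((hr.symm.sub_right (Commute.refl _))).inv_right₀
  rw [h1, mul_neg, ← sub_eq_add_neg, h2.eq, ← mul_sub, inv_mul_cancel₀ h0]
  simp

theorem uu_comm {r : D} (hr : Commute r (star r)) (hne : r ≠ star r) (h0 : r ≠ 0) :
    uu 1 ((r - star r)⁻¹ * r) = star r * r⁻¹ := by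
  have h2 : r - star r ≠ 0 := sub_ne_zero.mpr hne
  rw [uu, star_one, one_mul, mul_one, mul_inv_rev, inv_inv, mul_sub, inv_mul_cancel₀ h0,
    sub_sub_cancel]
  exact (hr.inv_left₀).eq

/-- **The commuting formula.**  The functional at `(0, 1)` is `c (r⋆ r⁻¹)`. -/
theorem FF_comm {c : D → E} (h1 : c 1 = 1) {r : D} (hr : Commute r (star r))
    (hne : r ≠ star r) (h0 : r ≠ 0) :
    FF c r 0 1 (r - star r)⁻¹ = c (star r * r⁻¹) := by
  rw [FF, uu_comm hr hne h0, uu_zero, h1, div_one]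

/-- The pair `(0, 1)` is in the domain at `r`. -/
theorem Dm_comm {W : Set D} (hW : (1 : D) ∈ W) {r : D} (hr : Commute r (star r))
    (hne : r ≠ star r) (h0 : r ≠ 0) (h : star r * r⁻¹ ∈ W) :
    Dm W r 0 1 (r - star r)⁻¹ :=
  ⟨at_comm hr hne, by rw [uu_zero]; exact hW, by rw [uu_comm hr hne h0]; exact h⟩

/-- The formula at `g⁻¹ κ`, for a central `κ` and `g` commuting with `g⋆`. -/
theorem comm_central {g κ : D} (hg : Commute g (star g)) (hκ : ∀ x : D, κ * x = x * κ) :
    Commute (g⁻¹ * κ) (star (g⁻¹ * κ)) ∧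
      star (g⁻¹ * κ) * (g⁻¹ * κ)⁻¹ = star κ * κ⁻¹ * (g * (star g)⁻¹) := by
  have hκ1 : ∀ x : D, Commute κ x := fun x => hκ x
  have hκs : ∀ x : D, Commute (star κ) x := by
    intro x
    have := congrArg star (hκ (star x))
    rw [star_mul, star_mul, star_star] at this
    exact this.symm
  have hs : star (g⁻¹ * κ) = star κ * (star g)⁻¹ := by rw [star_mul, star_inv₀]
  constructor
  · rw [hs]
    have h2 : Commute g⁻¹ (star g)⁻¹ := hg.inv_left₀.inv_right₀
    exact ((hκs _).symm.mul_right h2).mul_left (hκ1 _)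
  · rw [hs, mul_inv_rev, inv_inv]
    have h1 : Commute (star g)⁻¹ (κ⁻¹ * g) :=
      ((hκ1 _).inv_left₀.symm).mul_right (hg.symm.inv_left₀)
    rw [mul_assoc, h1.eq, mul_assoc, mul_assoc]

end Vale.Agent.P011.H955.Odd
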